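import Vale.Agent.P212H52.Rows
import Mathlib.Analysis.InnerProductSpace.Completion
import Mathlib.Analysis.Normed.Operator.Extend

/-! The evaluations of a Kasparov `(A, C([0,1]))`-module exist and are unique. -/

namespace Vale.Agent.P212H58

open Vale.Agent.P212H Vale.Agent.P212Z Vale.Agent.P212Z.Kas ContinuousLinearMap
open scoped ComplexOrder

theorem ex_compl {V : Type} [AddCommGroup V] [Module ℂ V] (c : PreInnerProductSpace.Core ℂ V) :
    ∃ (H : Type) (_ : NormedAddCommGroup H) (_ : InnerProductSpace ℂ H) (_ : CompleteSpace H)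
      (π : V →ₗ[ℂ] H), DenseRange π ∧ ∀ x y, inner ℂ (π x) (π y) = c.inner x y := by
  let _ : SeminormedAddCommGroup V := InnerProductSpace.Core.toSeminormedAddCommGroup (c := c)
  let _ : InnerProductSpace ℂ V := InnerProductSpace.ofCore c
  exact ⟨UniformSpace.Completion V, inferInstance, inferInstance, inferInstance,
    (UniformSpace.Completion.toComplL (𝕜 := ℂ) (E := V)).toLinearMap,
    UniformSpace.Completion.denseRange_coe,
    fun x y => UniformSpace.Completion.inner_coe x y⟩

variable {E H K : Type} [NormedAddCommGroup E] [NormedSpace ℂ E]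
  [SMul CI E] [CStarModule CI E] [NormedAddCommGroup H] [InnerProductSpace ℂ H] [CompleteSpace H]
  [NormedAddCommGroup K] [InnerProductSpace ℂ K] [CompleteSpace K]

theorem re_nonneg (x : E) (s : unitInterval) : 0 ≤ (inner CI x x s).re :=
  (Complex.nonneg_iff.mp ((CStarModule.inner_self_nonneg (A := CI) (x := x)) s)).1

theorem ex_fibre (E : Type) [NormedAddCommGroup E] [NormedSpace ℂ E] [SMul CI E]
    [CStarModule CI E] (t : unitInterval) :
    ∃ (H : Type) (_ : NormedAddCommGroup H) (_ : InnerProductSpace ℂ H) (_ : CompleteSpace H)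
      (π : E →ₗ[ℂ] H), DenseRange π ∧ ∀ x y, inner ℂ (π x) (π y) = inner CI x y t :=
  ex_compl (V := E)
    { inner := fun x y => inner CI x y t
      conj_inner_symm := fun x y => by
        rw [← CStarModule.star_inner (A := CI) y x]; rfl
      re_inner_nonneg := fun x => re_nonneg x t
      add_left := fun x y z => by simp
      smul_left := fun x y r => by simp }

omit [SMul CI E] [CStarModule CI E] [CompleteSpace H] [CompleteSpace K] in
theorem ext_pi {π : E →ₗ[ℂ] H} (hd : DenseRange π) {P Q : H →L[ℂ] K}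
    (h : ∀ x, P (π x) = Q (π x)) : P = Q :=
  ContinuousLinearMap.ext fun z =>
    hd.induction_on z (isClosed_eq P.continuous Q.continuous) h

omit [SMul CI E] [CStarModule CI E] [CompleteSpace H] in
theorem eq_of_inn {π : E →ₗ[ℂ] H} (hd : DenseRange π) {u v : H}
    (h : ∀ y, inner ℂ u (π y) = inner ℂ v (π y)) : u = v :=
  ext_inner_right ℂ fun z =>
    hd.induction_on z (isClosed_eq (by fun_prop) (by fun_prop)) h

section
variable {π : E →ₗ[ℂ] H} {t : unitInterval} (hd : DenseRange π)
  (hi : ∀ x y, inner ℂ (π x) (π y) = inner CI x y t)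

omit [CompleteSpace H] in
include hi in
theorem norm_sq_pi (x : E) : ‖π x‖ ^ 2 = (inner CI x x t).re := by
  rw [← hi, ← inner_self_eq_norm_sq (𝕜 := ℂ)]; rfl

omit [CompleteSpace H] in
include hi in
theorem norm_pi_le (x : E) : ‖π x‖ ≤ ‖x‖ := by
  refine (pow_le_pow_iff_left₀ (norm_nonneg _) (norm_nonneg _) two_ne_zero).mp ?_
  rw [norm_sq_pi hi, CStarModule.norm_sq_eq CI]
  exact (Complex.re_le_norm _).trans (ContinuousMap.norm_coe_le_norm _ _)

omit [CompleteSpace H] in
include hd hi in
theorem pi_smul (b : CI) (x : E) : π (b • x) = b t • π x :=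
  eq_of_inn hd fun y => by
    rw [inner_smul_left, hi, hi, CStarModule.inner_op_smul_left]
    simp [mul_comm]

omit [CompleteSpace H] in
include hi in
theorem key (S : E → E) (hS : ∀ (b : CI) x, π (S (b • x)) = b t • π (S x)) {C : ℝ} (hC : 0 ≤ C)
    (hb : ∀ z, ‖S z‖ ≤ C * ‖z‖) (x : E) : ‖π (S x)‖ ≤ C * ‖π x‖ := by
  have main : ∀ c : ℝ, ‖π x‖ < c → ‖π (S x)‖ ≤ C * c := by
    intro c hc
    have c0 : 0 < c := (norm_nonneg _).trans_lt hc
    have mp : ∀ s, 0 < max c √(inner CI x x s).re := fun s => lt_max_of_lt_left c0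
    let b : CI := ⟨fun s => ((c / max c √(inner CI x x s).re : ℝ) : ℂ), by
      refine Complex.continuous_ofReal.comp (continuous_const.div ?_ fun s => (mp s).ne')
      fun_prop⟩
    have bt : b t = 1 := by
      have : max c √(inner CI x x t).re = c := by
        rw [← norm_sq_pi hi, Real.sqrt_sq (norm_nonneg _)]; exact max_eq_left hc.le
      simp [b, this, c0.ne']
    have nb : ‖b • x‖ ≤ c := by
      refine (pow_le_pow_iff_left₀ (norm_nonneg _) c0.le two_ne_zero).mp ?_
      rw [CStarModule.norm_sq_eq CI, ContinuousMap.norm_le _ (by positivity)]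
      intro s
      have e : inner CI x x s = (((√(inner CI x x s).re) ^ 2 : ℝ) : ℂ) := by
        rw [Real.sq_sqrt (re_nonneg x s)]
        have := (Complex.nonneg_iff.mp ((CStarModule.inner_self_nonneg (A := CI) (x := x)) s)).2
        exact Complex.ext rfl (by simpa using this.symm)
      have e2 : inner CI (b • x) (b • x) s =
          (((c / max c √(inner CI x x s).re * √(inner CI x x s).re) ^ 2 : ℝ) : ℂ) := by
        rw [CStarModule.inner_op_smul_right, CStarModule.inner_op_smul_left]
        simp only [ContinuousMap.mul_apply, ContinuousMap.star_apply, b, ContinuousMap.coe_mk,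
          Complex.star_def, Complex.conj_ofReal]
        rw [mul_pow]
        nth_rewrite 2 [e]
        push_cast; ring
      rw [e2, Complex.norm_real, Real.norm_of_nonneg (by positivity)]
      refine pow_le_pow_left₀ (mul_nonneg (div_pos c0 (mp s)).le (Real.sqrt_nonneg _)) ?_ 2
      rw [div_mul_eq_mul_div, div_le_iff₀ (mp s)]
      exact mul_le_mul_of_nonneg_left (le_max_right _ _) c0.le
    calc ‖π (S x)‖ = ‖π (S (b • x))‖ := by rw [hS, bt, one_smul]
      _ ≤ C * ‖b • x‖ := (norm_pi_le hi _).trans (hb _)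
      _ ≤ C * c := mul_le_mul_of_nonneg_left nb hC
  refine le_of_forall_pos_le_add fun ε hε => ?_
  have h1 : 0 < ε / (C + 1) := by positivity
  refine (main (‖π x‖ + ε / (C + 1)) (by linarith)).trans ?_
  have : C * (ε / (C + 1)) ≤ ε := by
    rw [← mul_div_assoc, div_le_iff₀ (by positivity)]; nlinarith
  linarith [mul_add C ‖π x‖ (ε / (C + 1))]

include hd hi in
theorem ex_ind {T S : E →L[ℂ] E} (h : IsAdj CI T S) :
    ∃ T' : H →L[ℂ] H, ∀ x, T' (π x) = π (T x) := by
  refine ⟨(π ∘ₗ T.toLinearMap).extendOfNorm π, fun x =>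
    LinearMap.extendOfNorm_eq hd ⟨‖T‖, fun z => ?_⟩ x⟩
  refine key hi T (fun b x => eq_of_inn hd fun y => ?_) (norm_nonneg _) T.le_opNorm z
  rw [inner_smul_left, hi, hi, h, h, CStarModule.inner_op_smul_left]
  simp [mul_comm]

include hd hi in
theorem star_ind {T S : E →L[ℂ] E} (h : IsAdj CI T S) {T' S' : H →L[ℂ] H}
    (hT : ∀ x, T' (π x) = π (T x)) (hS : ∀ x, S' (π x) = π (S x)) : star T' = S' :=
  ext_pi hd fun y => ext_inner_left ℂ fun z =>
    hd.induction_on z (isClosed_eq (by fun_prop) (by fun_prop)) fun x => by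
      rw [star_eq_adjoint, adjoint_inner_right, hT, hS, hi, hi, h]

include hd hi in
theorem cpt_ind {T : E →L[ℂ] E} (h : IsCpt CI T) {T' : H →L[ℂ] H}
    (hT : ∀ x, T' (π x) = π (T x)) : IsCompactOperator T' := by
  refine isClosed_setOfPred_isCompactOperator.closure_subset (Metric.mem_closure_iff.mpr ?_)
  intro ε hε
  obtain ⟨n, x, y, hxy⟩ := h (ε / 2) (by positivity)
  let R : H →L[ℂ] H := ∑ i, (innerSL ℂ (π (y i))).smulRight (π (x i))
  have hR : ∀ z, R (π z) = π (∑ i, inner CI (y i) z • x i) := fun z => by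
    simp [R, pi_smul hd hi, hi]
  refine ⟨R, ?_, ?_⟩
  · refine Finset.sum_induction _ (fun P : H →L[ℂ] H => IsCompactOperator P)
      (fun a b ha hb => ha.add hb) isCompactOperator_zero fun i _ => ?_
    have : IsCompactOperator (innerSL ℂ (π (y i))) := isCompactOperator_of_locallyCompactSpace_dom _
    exact this.clm_comp (toSpanSingleton ℂ (π (x i)))
  · rw [dist_eq_norm]
    refine (opNorm_le_bound _ (by positivity : 0 ≤ ε / 2) fun z => ?_).trans_lt (by linarith)
    refine hd.induction_on z (isClosed_le (by fun_prop) (by fun_prop)) fun z => ?_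
    have := key hi (fun z => T z - ∑ i, inner CI (y i) z • x i) (fun b z => by
      simp only [map_sub, ← hT, ← hR, pi_smul hd hi, map_smul, smul_sub]) (by positivity) hxy z
    simpa only [map_sub, ← hT, ← hR, _root_.sub_apply] using this

omit [CompleteSpace H] in
include hd hi in
theorem sep (h : CountablyGen CI E) : TopologicalSpace.SeparableSpace H := by
  obtain ⟨x, hx⟩ := h
  have pc : Continuous π := AddMonoidHomClass.continuous_of_bound π 1 fun z => by
    simpa using norm_pi_le hi z
  have h1 : TopologicalSpace.IsSeparable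
      (Submodule.span ℂ (Set.range fun n => π (x n)) : Set H) :=
    (Set.countable_range _).isSeparable.span
  have h2 : Dense (Submodule.span ℂ (Set.range fun n => π (x n)) : Set H) := by
    refine (hd.dense_image pc hx).mono ?_
    rintro _ ⟨z, hz, rfl⟩
    refine (Submodule.span_le (p := (Submodule.span ℂ (Set.range fun n => π (x n))).comap π)).mpr
      ?_ hz
    rintro _ ⟨b, n, rfl⟩
    change π (b • x n) ∈ Submodule.span ℂ _
    rw [pi_smul hd hi]
    exact Submodule.smul_mem _ _ (Submodule.subset_span ⟨n, rfl⟩)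
  rw [← TopologicalSpace.isSeparable_univ_iff, ← h2.closure_eq]
  exact h1.closure

include hd hi in
theorem ex_eval {A : Type} [NonUnitalCStarAlgebra A] (m : KMod CI E A) :
    ∃ c : Fredholm A H, IsEval m t c π := by
  obtain ⟨γ, hγ⟩ := ex_ind hd hi m.γ_adj
  obtain ⟨F, hF⟩ := ex_ind hd hi m.F_adj
  have adj' : IsAdj CI m.F' m.F := fun x y => by
    rw [← CStarModule.star_inner (A := CI) y, ← m.F_adj, CStarModule.star_inner]
  obtain ⟨F', hF'⟩ := ex_ind hd hi adj'
  choose r hr using fun a => ex_ind hd hi (m.φ_adj a)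
  let ρ : A →⋆ₙₐ[ℂ] (H →L[ℂ] H) :=
    { toFun := r
      map_smul' := fun c a => ext_pi hd fun x => by simp [hr]
      map_zero' := ext_pi hd fun x => by simp [hr]
      map_add' := fun a b => ext_pi hd fun x => by simp [hr]
      map_mul' := fun a b => ext_pi hd fun x => by simp [hr]
      map_star' := fun a => (star_ind hd hi (m.φ_adj a) (hr a) (hr _)).symm }
  have hρ : ∀ a x, ρ a (π x) = π (m.φ a x) := hr
  refine ⟨⟨γ, ρ, F, sep hd hi m.gen, star_ind hd hi m.γ_adj hγ hγ, ext_pi hd fun x => ?_,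
    fun a => ext_pi hd fun x => ?_, ext_pi hd fun x => ?_,
    fun a => cpt_ind hd hi (m.sq a) fun x => by simp [hρ, hF],
    fun a => cpt_ind hd hi (m.sa a) fun x => ?_,
    fun a => cpt_ind hd hi (m.comm a) fun x => by simp [hρ, hF]⟩, hd, hi, hγ, hρ, hF⟩
  · have := congrArg (fun P : E →L[ℂ] E => π (P x)) m.γ_sq
    simpa [hγ] using this
  · have := congrArg (fun P : E →L[ℂ] E => π (P x)) (m.even a)
    simpa [hγ, hρ] using this
  · have := congrArg (fun P : E →L[ℂ] E => π (P x)) m.odd
    simpa [hγ, hF] using this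
  · rw [star_ind hd hi m.F_adj hF hF']
    simp [hρ, hF, hF']

end

theorem uniq {A : Type} [NonUnitalCStarAlgebra A] {m : KMod CI E A} {t : unitInterval}
    {a : Fredholm A H} {b : Fredholm A K} {π : E →ₗ[ℂ] H} {π' : E →ₗ[ℂ] K}
    (h : IsEval m t a π) (h' : IsEval m t b π') : UnitEq a b := by
  have hn : ∀ x, ‖π' (LinearEquiv.refl ℂ E x)‖ = ‖π x‖ := fun x =>
    (pow_left_inj₀ (norm_nonneg _) (norm_nonneg _) two_ne_zero).mp
      ((norm_sq_pi h'.inn x).trans (norm_sq_pi h.inn x).symm)
  let U := (LinearEquiv.refl ℂ E).extendOfIsometry π π' h.dense h'.dense hn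
  have hU : ∀ x, U (π x) = π' x := fun x =>
    LinearEquiv.extendOfIsometry_eq _ π π' h.dense h'.dense hn x
  let u : H →L[ℂ] K := U.toContinuousLinearEquiv
  have hu : ∀ x, u (π x) = π' x := hU
  have ha : adj u = (U.symm.toContinuousLinearEquiv : K →L[ℂ] H) := U.adjoint_eq_symm
  refine ⟨u, ⟨?_, ext_pi h.dense fun x => ?_, fun f => ext_pi h.dense fun x => ?_,
    ext_pi h.dense fun x => ?_⟩, ?_⟩
  · rw [ha]; ext z; simp [u]
  · simp [hu, h.γ, h'.γ]
  · simp [hu, h.ρ, h'.ρ]
  · simp [hu, h.F, h'.F]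
  · rw [ha]; ext z; simp [u]

theorem eval : EVAL := by
  intro A _ E _ _ _ _ m t
  refine ⟨?_, fun H K _ _ _ _ _ _ a b π π' h h' => uniq h h'⟩
  obtain ⟨H, _, _, _, π, hd, hi⟩ := ex_fibre E t
  obtain ⟨c, hc⟩ := ex_eval hd hi m
  exact ⟨H, _, _, _, c, π, hc⟩

end Vale.Agent.P212H58
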